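import Vale.Agent.P329.H67.Defs
import Mathlib.GroupTheory.FiniteAbelian.Basic
import Mathlib.Algebra.Group.Pi.Lemmas

/-!
# P329 / [C] context products in finite abelian groups, clocks modulo `p ^ l`, from window sums
(helper342)
-/

set_option linter.all false

namespace Vale.Agent.P329.H342

open Vale.Agent.P329 Vale.Agent.P329.H67

theorem win_inj {α : Type} {c : ℕ} {b b' : α} {X X' : List α}
    (h : win (c + 1) (b' :: X') = win (c + 1) (b :: X)) : b' = b ∧ X'.take c = X.take c := by
  constructor
  · have h1 := congrFun h 0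
    simpa [win] using h1
  · refine List.ext_getElem? fun i => ?_
    by_cases hi : i < c
    · have h1 := congrFun h ⟨i + 1, by omega⟩
      simp only [win, List.getElem?_cons_succ] at h1
      rw [List.getElem?_take_of_lt hi, List.getElem?_take_of_lt hi, h1]
    · have h2 : ∀ Y : List α, (Y.take c)[i]? = none := by
        intro Y
        refine List.getElem?_eq_none ?_
        rw [List.length_take]
        have := Nat.min_le_left c Y.length
        omega
      rw [h2, h2]

open Classical in
/-- the weight as a function of the clock and the window -/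
noncomputable def wF {α : Type} (n c m : ℕ) (χ : List α → α → Multiplicative (ZMod m)) :
    ℕ → (Fin (c + 1) → Option α) → ℤ := fun e W =>
  if h : ∃ q : List α × α, (q.1.length + 1) % n = e % n ∧ win (c + 1) (q.2 :: q.1) = W then
    (((χ h.choose.1 h.choose.2).toAdd.val : ℕ) : ℤ) else 0

theorem wF_eq {α : Type} {n c m : ℕ} [NeZero m] {χ : List α → α → Multiplicative (ZMod m)}
    (hχ : ∀ (X Y : List α) (b : α), X.length % n = Y.length % n → X.take c = Y.take c →
      χ X b = χ Y b) (X : List α) (b : α) :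
    ((wF n c m χ (X.length + 1) (win (c + 1) (b :: X)) : ℤ) : ZMod m) = (χ X b).toAdd := by
  have h : ∃ q : List α × α, (q.1.length + 1) % n = (X.length + 1) % n ∧
      win (c + 1) (q.2 :: q.1) = win (c + 1) (b :: X) := ⟨(X, b), rfl, rfl⟩
  rw [wF, dif_pos h]
  obtain ⟨h1, h2⟩ := h.choose_spec
  obtain ⟨h3, h4⟩ := win_inj h2
  have h5 : h.choose.1.length % n = X.length % n := Nat.ModEq.add_right_cancel' 1 h1
  rw [hχ _ _ _ h5 h4, h3]
  push_cast
  exact ZMod.natCast_zmod_val _

theorem hp_oc {α : Type} {n c m : ℕ} [NeZero m] {χ : List α → α → Multiplicative (ZMod m)}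
    (hχ : ∀ (X Y : List α) (b : α), X.length % n = Y.length % n → X.take c = Y.take c →
      χ X b = χ Y b) (X : List α) :
    H157.hp χ X = Multiplicative.ofAdd ((oc (c + 1) (wF n c m χ) X : ℤ) : ZMod m) := by
  induction X with
  | nil =>
    rw [H157.hp, oc, Int.cast_zero]
    rfl
  | cons b X ih =>
    rw [H157.hp, oc, ih, Int.cast_add, wF_eq hχ]
    rfl

theorem ctxK_zmod {p : ℕ} (hB : StB p) {m : ℕ} (hm : m ≠ 0) (l : ℕ) :
    H434.CtxK (p ^ l) (Multiplicative (ZMod m)) := by
  intro α _ c χ hχ S
  haveI : NeZero m := ⟨hm⟩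
  have h1 := hB α l (c + 1) (wF (p ^ l) c m χ) (fun e W => by
    unfold wF
    rw [Nat.add_mod_right]) m (Nat.pos_of_ne_zero hm)
  have h2 := H434.kn_set h1 {x | Multiplicative.ofAdd x ∈ S}
  refine Eq.mp (congrArg (SH 1) ?_) h2
  ext w
  change Multiplicative.ofAdd ((oc (c + 1) (wF (p ^ l) c m χ) w.reverse : ℤ) : ZMod m) ∈ S ↔
    H157.hp χ w.reverse ∈ S
  rw [hp_oc hχ]

/-- **[C]** context products in finite abelian groups, clocks modulo powers of `p` -/
theorem ctxK_abel {p : ℕ} (hB : StB p) {G : Type} [Group G] [Finite G]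
    (hG : ∀ a b : G, a * b = b * a) (l : ℕ) : H434.CtxK (p ^ l) G := by
  letI : CommGroup G := { (inferInstance : Group G) with mul_comm := hG }
  obtain ⟨ι, hι, n, hn, ⟨e⟩⟩ := CommGroup.equiv_prod_multiplicative_zmod_of_finite G
  haveI : ∀ i, NeZero (n i) := fun i => ⟨by have := hn i; omega⟩
  exact (H434.CtxK.pi fun i => ctxK_zmod hB (by have := hn i; omega) l).equiv e.symm

end Vale.Agent.P329.H342
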