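import Vale.Agent.P329.H342.CtxA
import Vale.Agent.P329.H434.Clock

/-!
# P329 / [C] for an arbitrary clock `n` (helper342)
-/

set_option linter.all false

namespace Vale.Agent.P329.H342

open Vale.Agent.P329 Vale.Agent.P329.H67

/-- all windows, all weights periodic modulo `n` -/
def StN (n : ℕ) : Prop := ∀ (α : Type) [Finite α] (N : ℕ) (F : ℕ → (Fin N → Option α) → ℤ),
  (∀ e W, F (e + n) W = F e W) → KnZ fun w : List α => oc N F w.reverse

theorem ctxK_zmod_n {n : ℕ} (hB : StN n) {m : ℕ} (hm : m ≠ 0) :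
    H434.CtxK n (Multiplicative (ZMod m)) := by
  intro α _ c χ hχ S
  haveI : NeZero m := ⟨hm⟩
  have h1 := hB α (c + 1) (wF n c m χ) (fun e W => by
    unfold wF
    rw [Nat.add_mod_right]) m (Nat.pos_of_ne_zero hm)
  have h2 := H434.kn_set h1 {x | Multiplicative.ofAdd x ∈ S}
  refine Eq.mp (congrArg (SH 1) ?_) h2
  ext w
  change Multiplicative.ofAdd ((oc (c + 1) (wF n c m χ) w.reverse : ℤ) : ZMod m) ∈ S ↔
    H157.hp χ w.reverse ∈ S
  rw [hp_oc hχ]

/-- **[C]** context products in finite abelian groups, clocks modulo `n` -/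
theorem ctxK_abel_n {n : ℕ} (hB : StN n) {G : Type} [Group G] [Finite G]
    (hG : ∀ a b : G, a * b = b * a) : H434.CtxK n G := by
  letI : CommGroup G := { (inferInstance : Group G) with mul_comm := hG }
  obtain ⟨ι, hι, n, hn, ⟨e⟩⟩ := CommGroup.equiv_prod_multiplicative_zmod_of_finite G
  haveI : ∀ i, NeZero (n i) := fun i => ⟨by have := hn i; omega⟩
  exact (H434.CtxK.pi fun i => ctxK_zmod_n hB (by have := hn i; omega)).equiv e.symm

/-- local properties, clocks modulo `n` -/
theorem locK_n {n : ℕ} (hB : StN n) : H434.LocK n := by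
  haveI : Fact (Nat.Prime 2) := ⟨Nat.prime_two⟩
  exact H434.LocK.of_ctx (p := 2) (ctxK_zmod_n hB two_ne_zero)

end Vale.Agent.P329.H342
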